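import Vale.Agent.P255.Assembly.Main

/-!
A closed three-manifold with a metric without conjugate points and no metric of nonpositive
sectional curvature.
-/

open Bundle Manifold
open scoped ContDiff Topology

namespace Vale.Agent.Results.P255.NoNpcCounterexample

set_option maxSynthPendingDepth 3

open Vale.Agent.P255 in
/-- A closed connected three-manifold carries a metric without conjugate points but no metric of
nonpositive sectional curvature. -/
theorem result :
    ∃ (M : Type) (_ : TopologicalSpace M) (_ : ChartedSpace (ℝ × ℝ × ℝ) M)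
      (_ : IsManifold 𝓘(ℝ, ℝ × ℝ × ℝ) ∞ M),
      T2Space M ∧ CompactSpace M ∧ ConnectedSpace M ∧
      (∃ g : ContMDiffRiemannianMetric 𝓘(ℝ, ℝ × ℝ × ℝ) ∞ (ℝ × ℝ × ℝ)
          (fun x : M => TangentSpace 𝓘(ℝ, ℝ × ℝ × ℝ) x),
        NoConjugatePoints g) ∧
      ∀ g : ContMDiffRiemannianMetric 𝓘(ℝ, ℝ × ℝ × ℝ) ∞ (ℝ × ℝ × ℝ)
          (fun x : M => TangentSpace 𝓘(ℝ, ℝ × ℝ × ℝ) x),
        ¬ HasNonposCurvature g :=
  exists_counterexample

end Vale.Agent.Results.P255.NoNpcCounterexample
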